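import Vale.Agent.P067.Alld.Defs
import Vale.Agent.P067.Sparse.Chains

/-!
P067, bounded degree in every dimension: the module statements.
-/

namespace Vale.Agent.P067.Alld

open Finset

/-- Module G: spectral descent, small locally minimal cochains and local corrections. -/
def CosetGlobalStmt : Prop :=
  ∀ (d n : ℕ) (β : ℝ), 1 ≤ d → d + 2 ≤ n → 0 < β → ∃ lam : ℝ, 0 < lam ∧ ∀ D : ℕ, ∃ ε : ℝ, 0 < ε ∧
    ∀ (G : Type) [Group G] [Finite G] (H : Fin n → Subgroup G) [Fintype (Vert H)]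
      [DecidableEq (Vert H)],
      DegreeLE D (tops H) → Generated H → RankTwoLam H lam →
      (∀ s : Finset (Vert H), ∀ k, s ∈ face (tops H) s.card → 1 ≤ s.card → s.card + k ≤ d + 1 →
        Expands (link (tops H) s) k β) →
      (∀ k, 1 ≤ k → k ≤ d → Exact (tops H) k) →
      IsCoboundaryExpander d ε (face (tops H) (d + 1))

/-- Module F: generation and the rank two spectral bound for `K_m`. -/
def RankTwoStmt : Prop :=
  ∀ n : ℕ, 4 ≤ n → ∀ lam : ℝ, 0 < lam → ∃ p₀ : ℕ, ∀ (p : ℕ) [Fact p.Prime], p₀ ≤ p →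
    ∀ m, 2 ≤ m → Generated (hyp (ZMod p) n (Rm p m) (tm p m)) ∧
      RankTwoLam (hyp (ZMod p) n (Rm p m) (tm p m)) lam

/-- Module E: coboundary expansion of the links, with a constant independent of `p` and `m`. -/
def LinkExpandsStmt : Prop :=
  ∀ d : ℕ, ∃ n₀ : ℕ, ∀ n, n₀ ≤ n → ∃ β : ℝ, 0 < β ∧ ∃ p₀ : ℕ,
    ∀ (p : ℕ) [Fact p.Prime], p₀ ≤ p → ∀ m, 2 ≤ m → ∀ s : Finset (KV p n m), ∀ k,
      s ∈ face (ktops p n m) s.card → 1 ≤ s.card → s.card + k ≤ d + 1 →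
        Expands (link (ktops p n m) s) k β

/-- Module II: `Δ` is acyclic through the range. -/
def DeltaAcyclicStmt : Prop :=
  ∀ d : ℕ, ∃ n₀ : ℕ, ∀ n, n₀ ≤ n → ∃ p₀ : ℕ, ∀ (p : ℕ) [Fact p.Prime], p₀ ≤ p →
    ∀ (_ : DecidableEq (Vert (hInf p n))) (i : ℕ), i ≤ d → ∀ z : Sparse.Ch (Vert (hInf p n)),
      Sparse.On (fun σ => IsFace (hInf p n) σ ∧ σ.card = i) z → Sparse.bd z = 0 →
      ∃ y : Sparse.Ch (Vert (hInf p n)),
        Sparse.On (fun σ => IsFace (hInf p n) σ ∧ σ.card = i + 1) y ∧ Sparse.bd y = z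

/-- Module A: `Γ` is the whole group of matrices lower unitriangular mod `t`. -/
def GamEqStmt : Prop :=
  ∀ n : ℕ, 3 ≤ n → ∀ (p : ℕ) [Fact p.Prime]
    (g : Matrix.SpecialLinearGroup (Fin n) (Polynomial (ZMod p))),
    g ∈ GamInf p n ↔
      (∀ a, (g a a).coeff 0 = 1) ∧ ∀ a b, a < b → (g a b).coeff 0 = 0

/-- Part I: the cohomology of `K_m` vanishes. -/
def VanishStmt : Prop :=
  ∀ d : ℕ, ∃ n₀ : ℕ, ∀ n, n₀ ≤ n → ∃ p₀ : ℕ, ∀ (p : ℕ) [Fact p.Prime], p₀ ≤ p →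
    ∀ m, 2 ≤ m → ∀ k, 1 ≤ k → k ≤ d → Exact (ktops p n m) k

/-- Module H1: purity, bounded degree and growing size. -/
def SizeStmt : Prop :=
  ∀ n : ℕ, 4 ≤ n → ∀ (p : ℕ) [Fact p.Prime], ∃ D : ℕ,
    (∀ m, IsPure (n - 1) (ktops p n m) ∧ DegreeLE D (ktops p n m)) ∧
    ∀ N : ℕ, ∃ m, 2 ≤ m ∧ N ≤ Fintype.card (KV p n m)

/-- The answer to Q1. -/
def MainStmt : Prop :=
  ∀ d : ℕ, 1 ≤ d → ∃ (D : ℕ) (ε : ℝ), 0 < ε ∧ ∀ N : ℕ,
    ∃ (V : Type) (_ : Fintype V) (_ : DecidableEq V) (F : Finset (Finset V)),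
      IsPure d F ∧ DegreeLE D F ∧ N ≤ Fintype.card V ∧
      (∀ S : Finset V, (∀ t ∈ F, t ⊆ S ∨ Disjoint t S) → S = ∅ ∨ S = univ) ∧
      IsCoboundaryExpander d ε F

end Vale.Agent.P067.Alld
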