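import Vale.Agent.P067.Defs

/-!
P067, bounded degree in every dimension: the frozen definitions.

* weights, cochains and local expansion for a finite pure complex given by its top faces
  (faces are sets of vertices and are graded by their cardinality);
* coset complexes;
* the groups: `Gam R t n` is generated by `n` finite unipotent groups `loc R t l`, the images of the
  lower unitriangular group over `F` under the cyclic twists.
-/

namespace Vale.Agent.P067.Alld

open Finset

section Cochains

variable {V : Type} [DecidableEq V]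

/-- Number of top faces through a face. -/
def wt (T : Finset (Finset V)) (σ : Finset V) : ℕ := (T.filter fun t => σ ⊆ t).card

/-- The faces with `k` vertices. -/
def face (T : Finset (Finset V)) (k : ℕ) : Finset (Finset V) :=
  T.biUnion fun t => t.powersetCard k

/-- The top faces of the link of `s`. -/
def link (T : Finset (Finset V)) (s : Finset V) : Finset (Finset V) :=
  (T.filter fun t => s ⊆ t).image fun t => t \ s

/-- The coboundary of a cochain given as a function on all vertex sets. -/
def delta (f : Finset V → ZMod 2) (τ : Finset V) : ZMod 2 := ∑ x ∈ τ, f (τ.erase x)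

/-- The mass (number of incidences with top faces) of the support of `f` among `k`-vertex faces. -/
def mass (T : Finset (Finset V)) (k : ℕ) (f : Finset V → ZMod 2) : ℕ :=
  ∑ σ ∈ (face T k).filter (fun σ => f σ ≠ 0), wt T σ

/-- Coboundary expansion in cardinality `k`. -/
def Expands (T : Finset (Finset V)) (k : ℕ) (β : ℝ) : Prop :=
  ∀ f : Finset V → ZMod 2, ∃ a : Finset V → ZMod 2,
    β * mass T k (f + delta a) ≤ mass T (k + 1) (delta f)

/-- Every cocycle in cardinality `k` is a coboundary. -/
def Exact (T : Finset (Finset V)) (k : ℕ) : Prop :=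
  ∀ f : Finset V → ZMod 2, (∀ τ ∈ face T (k + 1), delta f τ = 0) →
    ∃ a : Finset V → ZMod 2, ∀ σ ∈ face T k, f σ = delta a σ

/-- One sided spectral bound for the weighted graph of the complex. -/
def LamLe (T : Finset (Finset V)) (lam : ℝ) : Prop :=
  ∀ φ : V → ℝ, ∑ t ∈ T, ∑ x ∈ t, φ x = 0 →
    ∑ t ∈ T, ∑ x ∈ t, ∑ y ∈ t.erase x, φ x * φ y ≤
      lam * ∑ t ∈ T, ((t.card : ℝ) - 1) * ∑ x ∈ t, φ x ^ 2

/-- Connectedness, stated for the vertices that lie in top faces. -/
def Conn (T : Finset (Finset V)) : Prop :=
  ∀ S : Finset V, (∀ t ∈ T, t ⊆ S ∨ Disjoint t S) →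
    (∀ t ∈ T, Disjoint t S) ∨ ∀ t ∈ T, t ⊆ S

end Cochains

section Coset

variable {G : Type} [Group G] {n : ℕ} (H : Fin n → Subgroup G)

/-- Vertices of the coset complex. -/
abbrev Vert : Type := Σ l : Fin n, G ⧸ H l

/-- The vertex of type `l` of the chamber of `g`. -/
def pt (g : G) (l : Fin n) : Vert H := ⟨l, QuotientGroup.mk g⟩

/-- Faces: vertex sets inside one chamber. -/
def IsFace (σ : Finset (Vert H)) : Prop := ∃ g, ∀ v ∈ σ, v = pt H g v.1

/-- The chambers. -/
noncomputable def tops [Finite G] : Finset (Finset (Vert H)) := by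
  classical
  exact (Set.finite_range fun g : G => univ.image (pt H g)).toFinset

/-- The intersection of the subgroups of the types in `E`. -/
def inter (E : Finset (Fin n)) : Subgroup G := ⨅ l ∈ E, H l

/-- Two subgroups one type apart generate the group of their common types. -/
def Generated : Prop :=
  ∀ (E : Finset (Fin n)) (y z : Fin n), y ∉ E → z ∉ E → y ≠ z →
    inter H (insert y E) ⊔ inter H (insert z E) = inter H E

/-- The spectral bound for the rank two links. -/
def RankTwoLam (lam : ℝ) : Prop :=
  ∀ [Fintype G] (y z : Fin n), y ≠ z → ∀ f g : G → ℝ,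
    (∀ a, ∀ u ∈ inter H (univ.erase z), f (a * u) = f a) →
    (∀ a, ∀ u ∈ inter H (univ.erase y), g (a * u) = g a) →
    (∀ (a : G) [Fintype (inter H ((univ.erase y).erase z))],
      ∑ u : inter H ((univ.erase y).erase z), f (a * (u : G)) = 0 ∧
        ∑ u : inter H ((univ.erase y).erase z), g (a * (u : G)) = 0) →
    ∑ a, f a * g a ≤ lam * (∑ a, f a ^ 2 + ∑ a, g a ^ 2) / 2

end Coset

section Groups

variable (F : Type) [Field F] (n : ℕ)

/-- Lower unitriangular matrices. -/
def lowerSet : Set (Matrix (Fin n) (Fin n) F) :=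
  {u | (∀ a, u a a = 1) ∧ ∀ a b, a < b → u a b = 0}

variable {F n} (R : Type) [CommRing R] [Algebra F R] (t : R)

/-- The exponent of `t` at the entry `(a, b)` of the group of type `l`. -/
def expo (l a b : Fin n) : ℕ := if a ≤ l ∧ l < b then 1 else 0

/-- Position in the cyclic order that starts just after `l`. -/
def rot (l a : Fin n) : Fin n :=
  haveI : NeZero n := ⟨fun h => (h ▸ a).elim0⟩
  a - (l + 1)

/-- The twist of a matrix over `F` by type `l`. -/
def twist (l : Fin n) (u : Matrix (Fin n) (Fin n) F) : Matrix (Fin n) (Fin n) R :=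
  fun a b => algebraMap F R (u (rot l a) (rot l b)) * t ^ expo l a b

variable (F) in
/-- The finite unipotent group of type `l`. -/
def loc (l : Fin n) : Subgroup (Matrix.SpecialLinearGroup (Fin n) R) :=
  Subgroup.closure {g | ∃ u ∈ lowerSet F n, g.1 = twist R t l u}

variable (F n) in
/-- The group generated by all types. -/
def Gam : Subgroup (Matrix.SpecialLinearGroup (Fin n) R) := ⨆ l : Fin n, loc F R t l

variable (F n) in
/-- The subgroups defining the coset complex on `Gam`. -/
def hyp (l : Fin n) : Subgroup (Gam F n R t) := (loc F R t l).subgroupOf (Gam F n R t)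

end Groups

noncomputable section Family

/-- `F_p[t] / t^m`. -/
abbrev Rm (p m : ℕ) [Fact p.Prime] : Type := AdjoinRoot ((Polynomial.X : Polynomial (ZMod p)) ^ m)

/-- Its variable. -/
noncomputable abbrev tm (p m : ℕ) [Fact p.Prime] : Rm p m := AdjoinRoot.root _

/-- The finite group `Γ / N_m`. -/
abbrev Gm (p n m : ℕ) [Fact p.Prime] :
    Subgroup (Matrix.SpecialLinearGroup (Fin n) (Rm p m)) :=
  Gam (ZMod p) n (Rm p m) (tm p m)

instance Rm.finite (p m : ℕ) [Fact p.Prime] : Finite (Rm p m) :=
  have : Module.Finite (ZMod p) (Rm p m) :=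
    (AdjoinRoot.powerBasis (pow_ne_zero m Polynomial.X_ne_zero)).finite
  Module.finite_of_finite (ZMod p)

instance Gm.finite (p n m : ℕ) [Fact p.Prime] : Finite (Gm p n m) :=
  Finite.of_injective (fun g : Gm p n m => g.1.1) fun _ _ h => Subtype.ext (Subtype.ext h)

/-- Vertices of `K_m`. -/
abbrev KV (p n m : ℕ) [Fact p.Prime] : Type := Vert (hyp (ZMod p) n (Rm p m) (tm p m))

noncomputable instance KV.fintype (p n m : ℕ) [Fact p.Prime] : Fintype (KV p n m) :=
  Fintype.ofFinite _

noncomputable instance KV.decEq (p n m : ℕ) [Fact p.Prime] : DecidableEq (KV p n m) :=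
  Classical.decEq _

/-- Chambers of `K_m`. -/
noncomputable def ktops (p n m : ℕ) [Fact p.Prime] : Finset (Finset (KV p n m)) :=
  tops (hyp (ZMod p) n (Rm p m) (tm p m))

/-- The infinite group `Γ` inside `SL_n(F_p[t])`. -/
abbrev GamInf (p n : ℕ) [Fact p.Prime] :
    Subgroup (Matrix.SpecialLinearGroup (Fin n) (Polynomial (ZMod p))) :=
  Gam (ZMod p) n (Polynomial (ZMod p)) Polynomial.X

/-- The subgroups defining `Δ`. -/
abbrev hInf (p n : ℕ) [Fact p.Prime] : Fin n → Subgroup (GamInf p n) :=
  hyp (ZMod p) n (Polynomial (ZMod p)) Polynomial.X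

end Family

end Vale.Agent.P067.Alld
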